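import Vale.Agent.P088.R2.H31.F4.Full
import Vale.Agent.P088.R2.H558.G.Done
import Vale.Agent.P088.R2.H31.DM.Solv

open Manifold Vale.Agent.P088.B
open scoped ContDiff

namespace Vale.Agent.Results.P088.CalderonFull

universe u

/-- **Question 1 in full, affirmative answer.** Let `M` be a compact connected smooth manifold with
boundary, of dimension `n ≥ 3`, and let `Γ` be a nonempty relatively open part of the boundary.

* Every smooth Riemannian metric and smooth unitary connection on `M × ℂ^N` is exactly one pair: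
  the Riemannian volume exists and is unique.
* For every pair and every smooth `f`, the Dirichlet problem `d_A^* d_A u = 0` in `M`, `u = f` on
  the boundary, has exactly one solution which is smooth up to the boundary.
* If the data of two pairs on `Γ` are equal, then the pairs are related by a diffeomorphism of `M`
  and a gauge transformation which are the identity on `Γ`. -/
theorem result {n N : ℕ} [NeZero n] (hn : 3 ≤ n) (hN : 1 ≤ N) {M : Type u} [TopologicalSpace M]
    [ChartedSpace (EuclideanHalfSpace n) M] [IsManifold (𝓡∂ n) ∞ M] [T2Space M] [CompactSpace M]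
    [ConnectedSpace M] (Z : At n M) (hZ : Z = at_ n M) (Γ O : Set M) (hO : IsOpen O)
    (hΓ : Γ = O ∩ bd Z) (hne : Γ.Nonempty) :
    (∀ (g : M → Matrix (Fin n) (Fin n) ℝ) (A : M → Fin n → Matrix (Fin N) (Fin N) ℂ),
      IsSmooth Z g A → ∃! P : Pair Z N, P.g = g ∧ P.A = A) ∧
    (∀ (P : Pair Z N) (f : M → Fin N → ℂ), Sm Z f → ∃! u, Harm P f u) ∧
    ∀ P Q : Pair Z N, EqualData Γ P Q → Related Γ P Q := by
  subst hZ
  have hb : (bd (at_ n M)).Nonempty := by
    obtain ⟨x, hx⟩ := hne
    rw [hΓ] at hx
    exact ⟨x, hx.2⟩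
  exact ⟨fun g A h => Vale.Agent.P088.R2.H31.DM.exists_pair h,
    fun P f hf => Vale.Agent.P088.R2.H31.DM.solv_pair Vale.Agent.P088.R2.H31.DM.solvM (by omega) P
      hb hf,
    fun P Q h => Vale.Agent.P088.R2.H31.F4.full Vale.Agent.P088.R2.H558.G.rowESTh hn hN _ rfl Γ O
      hO hΓ hne P Q (Vale.Agent.P088.R2.H31.DM.sameData_of Vale.Agent.P088.R2.H31.DM.solvM
        (by omega) hb h)⟩

end Vale.Agent.Results.P088.CalderonFull
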